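import Vale.Agent.P237U.Ellipsoid
import Vale.Agent.P237N.Four
import Vale.Agent.P237N.Five
import Vale.Agent.P237N.Profile5Main
import Vale.Agent.P237H.Final
import Vale.Agent.P237H.Claim6

/-!
# Petty's projection volume conjecture in every dimension at least three
-/

namespace Vale.Agent.Results.P237.PettyProjectionInequality

open MeasureTheory Vale.Agent.P237

/-- Petty's conjecture for every `n ≥ 3`: `|ΠK| ≥ κₙ₋₁ⁿ κₙ²⁻ⁿ |K|ⁿ⁻¹` for every
convex body, with equality exactly for ellipsoids. -/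
theorem result (n : ℕ) (hn : 3 ≤ n) (K : Set (EuclideanSpace ℝ (Fin n)))
    (hK : IsCompact K) (hc : Convex ℝ K) (hi : (interior K).Nonempty) :
    ENNReal.ofReal (unitBallVol (n - 1) ^ n * (unitBallVol n ^ (n - 2))⁻¹
          * (volume K).toReal ^ (n - 1)) ≤ volume (projBody K) ∧
      (volume (projBody K) = ENNReal.ofReal (unitBallVol (n - 1) ^ n * (unitBallVol n ^ (n - 2))⁻¹
          * (volume K).toReal ^ (n - 1))
        ↔ ∃ (a : EuclideanSpace ℝ (Fin n)) (T : EuclideanSpace ℝ (Fin n) ≃ₗ[ℝ] EuclideanSpace ℝ (Fin n)),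
            K = (fun x => a + T x) '' Metric.closedBall 0 1) := by
  obtain rfl | rfl | rfl | rfl | hn' : n = 3 ∨ n = 4 ∨ n = 5 ∨ n = 6 ∨ 7 ≤ n := by omega
  · have e : unitBallVol (3 - 1) ^ 3 * (unitBallVol 3 ^ (3 - 2))⁻¹ = Vale.Agent.P237U.petty3 := by
      rw [Vale.Agent.P237U.petty3_eq]
      norm_num
    rw [e]
    refine ⟨Vale.Agent.P237U.petty_three K hK hc hi, fun h => ?_, ?_⟩
    · refine Vale.Agent.P237U.ellipsoid_of_equality hK hc hi ?_
      rw [h, ENNReal.toReal_ofReal]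
      exact mul_nonneg Vale.Agent.P237U.petty3_pos.le (pow_nonneg ENNReal.toReal_nonneg _)
    · rintro ⟨a, T, rfl⟩
      have h := Vale.Agent.P237U.equality_of_ellipsoid a T
      rw [← ENNReal.ofReal_toReal
        (Vale.Agent.P237R.isCompact_projBody hK).measure_lt_top.ne]
      exact congrArg ENNReal.ofReal h
  · have e : unitBallVol (4 - 1) ^ 4 * (unitBallVol 4 ^ (4 - 2))⁻¹ = Vale.Agent.P237N.petty4 :=
      Vale.Agent.P237N.petty4_eq.symm
    rw [e]
    exact Vale.Agent.P237N.petty_four_full hK hc hi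
  · have e : unitBallVol (5 - 1) ^ 5 * (unitBallVol 5 ^ (5 - 2))⁻¹ = Vale.Agent.P237N.petty5 :=
      Vale.Agent.P237N.petty5_eq.symm
    rw [e]
    exact Vale.Agent.P237N.petty_five_full hK hc hi
  · exact Vale.Agent.P237H.petty_of_claim 6 (by norm_num)
      (fun B _ b U h1 h2 h3 h4 h5 => Vale.Agent.P237H.claim6 B b U h1 h2 h3 h4 h5) K hK hc hi
  · exact Vale.Agent.P237H.petty_high n hn' K hK hc hi

end Vale.Agent.Results.P237.PettyProjectionInequality
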